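import Vale.Agent.P361.Model

/-!
# Product operators
-/

set_option linter.all false

namespace Vale.Agent.P361S42

open Matrix
open Vale.Agent.P361.Model (Op siteOp)

variable {V : Type} [Fintype V] [DecidableEq V]

section

variable {d : Type} [Fintype d] [DecidableEq d]

/-- the Kronecker product of a family of matrices -/
def kr (A : V → Matrix d d ℂ) : Matrix (V → d) (V → d) ℂ := of fun σ τ => ∏ y, A y (σ y) (τ y)

theorem kr_mul (A B : V → Matrix d d ℂ) : kr A * kr B = kr fun y => A y * B y := by
  ext σ τ
  simp only [kr, mul_apply, of_apply, ← Finset.prod_mul_distrib]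
  rw [Finset.prod_univ_sum, Fintype.piFinset_univ]

theorem kr_one : kr (fun _ : V => (1 : Matrix d d ℂ)) = 1 := by
  ext σ τ
  simp only [kr, of_apply, one_apply, Finset.prod_ite_zero, Finset.prod_const_one, funext_iff,
    Finset.mem_univ, true_imp_iff]

theorem kr_unit {U : Matrix d d ℂ} (h : IsUnit U) : IsUnit (kr fun _ : V => U) := by
  obtain ⟨W, hW⟩ := h.exists_right_inv
  exact IsUnit.of_mul_eq_one (kr fun _ => W) (by rw [kr_mul, hW, kr_one])

theorem kr_conj {A B U : Matrix d d ℂ} (h : A * U = U * B) (x : V) :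
    kr (fun y => if y = x then A else 1) * kr (fun _ => U) =
      kr (fun _ => U) * kr fun y => if y = x then B else 1 := by
  rw [kr_mul, kr_mul]
  congr 1
  ext1 y
  split_ifs
  · exact h
  · rw [Matrix.one_mul, Matrix.mul_one]

end

theorem site_comm {n : ℕ} (A : Matrix (Fin (n + 1)) (Fin (n + 1)) ℂ) (x y : V) :
    siteOp x A * siteOp y A = siteOp y A * siteOp x A := by
  show kr _ * kr _ = kr _ * kr _
  rw [kr_mul, kr_mul]
  congr 1
  ext1 z
  split_ifs <;> simp

end Vale.Agent.P361S42
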