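import Vale.Agent.P361S42.St0
import Vale.Agent.P361.Model
import Mathlib.LinearAlgebra.Eigenspace.Triangularizable

/-!
# Uniqueness and irreducibility of the spin matrices
-/

set_option linter.all false

namespace Vale.Agent.P361S42

open Matrix Complex Module
open Vale.Agent.P361.Model (spin spinZ spinLower)

/-- highest weight vectors -/
theorem top {V : Type*} [AddCommGroup V] [Module ℂ V] [FiniteDimensional ℂ V] [Nontrivial V]
    {E F H : End ℂ V} {s : ℝ} (hs : 0 ≤ s) (hE : ∀ v, H (E v) = E (H v) + E v)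
    (hF : ∀ v, H (F v) = F (H v) - F v)
    (h1 : ∀ v, E (F v) = ((s : ℂ) * (s + 1)) • v - H (H v) + H v)
    (h2 : ∀ v, F (E v) = ((s : ℂ) * (s + 1)) • v - H (H v) - H v) :
    ∃ w, w ≠ 0 ∧ E w = 0 ∧ H w = (s : ℂ) • w := by
  obtain ⟨μ, hμ, hM⟩ := Set.exists_max_image _ re H.finite_hasEigenvalue
    (End.exists_eigenvalue H)
  obtain ⟨ν, hν, hm⟩ := Set.exists_min_image _ re H.finite_hasEigenvalue
    (End.exists_eigenvalue H)
  obtain ⟨w, hw⟩ := End.HasEigenvalue.exists_hasEigenvector hμ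
  obtain ⟨u, hu⟩ := End.HasEigenvalue.exists_hasEigenvector hν
  have a : E w = 0 := by
    by_contra h
    have := hM (μ + 1) (End.hasEigenvalue_of_hasEigenvector ⟨End.mem_eigenspace_iff.2
      (by rw [hE, hw.apply_eq_smul, map_smul, add_smul, one_smul]), h⟩)
    rw [add_re, one_re] at this
    linarith
  have b : F u = 0 := by
    by_contra h
    have := hm (ν - 1) (End.hasEigenvalue_of_hasEigenvector ⟨End.mem_eigenspace_iff.2
      (by rw [hF, hu.apply_eq_smul, map_smul, sub_smul, one_smul]), h⟩)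
    rw [sub_re, one_re] at this
    linarith
  have c : ((s - μ) * (s + μ + 1)) • w = 0 := by
    have := h2 w
    rw [a, map_zero, hw.apply_eq_smul, map_smul, hw.apply_eq_smul] at this
    rw [this]
    module
  have d : ((s + ν) * (s - ν + 1)) • u = 0 := by
    have := h1 u
    rw [b, map_zero, hu.apply_eq_smul, map_smul, hu.apply_eq_smul] at this
    rw [this]
    module
  rw [smul_eq_zero_iff_left hw.2, mul_eq_zero] at c
  rw [smul_eq_zero_iff_left hu.2, mul_eq_zero] at d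
  refine ⟨w, hw.2, a, ?_⟩
  rcases c with c | c
  · rw [hw.apply_eq_smul, sub_eq_zero.1 c]
  have e := hM ν hν
  have c' := congrArg re c
  rcases d with d | d <;> have d' := congrArg re d <;> simp at c' d' <;> linarith

section

variable {d : Type} [Fintype d] [DecidableEq d] {s : ℝ} {S : Fin 3 → Matrix d d ℂ}

theorem rel (h : IsSpin s S) :
    S 2 * (S 0 + I • S 1) = (S 0 + I • S 1) * S 2 + (S 0 + I • S 1) ∧
    S 2 * (S 0 - I • S 1) = (S 0 - I • S 1) * S 2 - (S 0 - I • S 1) ∧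
    (S 0 + I • S 1) * (S 0 - I • S 1) = ((s : ℂ) * (s + 1)) • 1 - S 2 * S 2 + S 2 ∧
    (S 0 - I • S 1) * (S 0 + I • S 1) = ((s : ℂ) * (s + 1)) • 1 - S 2 * S 2 - S 2 := by
  have a := h.comm 0 1
  have b := h.comm 1 2
  have c := h.comm 2 0
  have e := h.casimir
  simp only [Fin.sum_univ_three, eps, Fin.val_zero, Fin.val_one, Fin.val_two] at a b c e
  norm_num at a b c
  rw [sub_eq_iff_eq_add] at a b c
  rw [← e]
  simp only [mul_add, add_mul, mul_sub, sub_mul, Matrix.mul_smul, Matrix.smul_mul, a, b, c,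
    smul_add, smul_sub, smul_smul, I_mul_I]
  refine ⟨?_, ?_, ?_, ?_⟩ <;> module

theorem topW (hs : 0 ≤ s) (h : IsSpin s S) {W : Submodule ℂ (d → ℂ)}
    (hW : ∀ a, ∀ v ∈ W, S a *ᵥ v ∈ W) (h0 : W ≠ ⊥) :
    ∃ w ∈ W, w ≠ 0 ∧ (S 0 + I • S 1) *ᵥ w = 0 ∧ S 2 *ᵥ w = (s : ℂ) • w := by
  obtain ⟨a, b, c, e⟩ := rel h
  have := Submodule.nontrivial_iff_ne_bot.2 h0
  have mE : ∀ v ∈ W, (S 0 + I • S 1).mulVecLin v ∈ W := fun v hv => by
    rw [mulVecLin_apply, add_mulVec, smul_mulVec]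
    exact W.add_mem (hW 0 v hv) (W.smul_mem _ (hW 1 v hv))
  have mF : ∀ v ∈ W, (S 0 - I • S 1).mulVecLin v ∈ W := fun v hv => by
    rw [mulVecLin_apply, sub_mulVec, smul_mulVec]
    exact W.sub_mem (hW 0 v hv) (W.smul_mem _ (hW 1 v hv))
  have mH : ∀ v ∈ W, (S 2).mulVecLin v ∈ W := hW 2
  generalize S 0 + I • S 1 = E at *
  generalize S 0 - I • S 1 = F at *
  obtain ⟨w, w0, w1, w2⟩ := top (E := E.mulVecLin.restrict mE) (F := F.mulVecLin.restrict mF)
    (H := (S 2).mulVecLin.restrict mH) hs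
    (fun v => Subtype.ext (show S 2 *ᵥ E *ᵥ v.1 = E *ᵥ S 2 *ᵥ v.1 + E *ᵥ v.1 by
      rw [mulVec_mulVec, mulVec_mulVec, a, add_mulVec]))
    (fun v => Subtype.ext (show S 2 *ᵥ F *ᵥ v.1 = F *ᵥ S 2 *ᵥ v.1 - F *ᵥ v.1 by
      rw [mulVec_mulVec, mulVec_mulVec, b, sub_mulVec]))
    (fun v => Subtype.ext (show E *ᵥ F *ᵥ v.1 = _ • v.1 - S 2 *ᵥ S 2 *ᵥ v.1 + S 2 *ᵥ v.1 by
      rw [mulVec_mulVec, mulVec_mulVec, c, add_mulVec, sub_mulVec, smul_mulVec, one_mulVec]))
    (fun v => Subtype.ext (show F *ᵥ E *ᵥ v.1 = _ • v.1 - S 2 *ᵥ S 2 *ᵥ v.1 - S 2 *ᵥ v.1 by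
      rw [mulVec_mulVec, mulVec_mulVec, e, sub_mulVec, sub_mulVec, smul_mulVec, one_mulVec]))
  exact ⟨w, w.2, fun h => w0 (Subtype.ext h), congrArg Subtype.val w1, congrArg Subtype.val w2⟩

end

/-- the coefficient of the lowering operator -/
noncomputable def rr (n j : ℕ) : ℂ := (√(((j + 1 : ℕ) : ℝ) * ((n : ℝ) + 1 - (j + 1 : ℕ))) : ℝ)

theorem rr_sq {n j : ℕ} (h : j ≤ n) : rr n j * rr n j = (j + 1) * (n - j) := by
  have : (j : ℝ) ≤ n := by exact_mod_cast h
  rw [rr, ← ofReal_mul, Real.mul_self_sqrt (mul_nonneg (by positivity) (by push_cast; linarith))]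
  push_cast
  ring

theorem rr_ne {n j : ℕ} (h : j < n) : rr n j ≠ 0 := by
  rw [← mul_self_ne_zero, rr_sq h.le]
  exact mul_ne_zero (Nat.cast_add_one_ne_zero j) (sub_ne_zero.2 (Nat.cast_injective.ne h.ne'))

/-- the normalized weight vectors -/
noncomputable def uu {d : Type} [Fintype d] (n : ℕ) (F : Matrix d d ℂ) (w : d → ℂ) : ℕ → d → ℂ
  | 0 => w
  | j + 1 => (rr n j)⁻¹ • F *ᵥ uu n F w j

variable {n : ℕ} {S : Fin 3 → Matrix (Fin (n + 1)) (Fin (n + 1)) ℂ}

theorem conjW (h : IsSpin ((n : ℝ) / 2) S) {W : Submodule ℂ (Fin (n + 1) → ℂ)}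
    (hW : ∀ a, ∀ v ∈ W, S a *ᵥ v ∈ W) (h0 : W ≠ ⊥) :
    ∃ U : Matrix (Fin (n + 1)) (Fin (n + 1)) ℂ, IsUnit U ∧ (∀ j, U.col j ∈ W) ∧
      ∀ a, S a * U = U * spin n a := by
  obtain ⟨w, wW, w0, w1, w2⟩ := topW (by positivity) h hW h0
  obtain ⟨-, b, c, -⟩ := rel h
  have mF : ∀ v ∈ W, (S 0 - I • S 1) *ᵥ v ∈ W := fun v hv => by
    rw [sub_mulVec, smul_mulVec]
    exact W.sub_mem (hW 0 v hv) (W.smul_mem _ (hW 1 v hv))
  have e0 : S 0 = (1 / 2 : ℂ) • ((S 0 + I • S 1) + (S 0 - I • S 1)) := by module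
  have e1 : S 1 = (1 / (2 * I) : ℂ) • ((S 0 + I • S 1) - (S 0 - I • S 1)) := by
    rw [show (S 0 + I • S 1) - (S 0 - I • S 1) = (2 * I) • S 1 by module, smul_smul,
      one_div_mul_cancel (by simp), one_smul]
  generalize S 0 + I • S 1 = E at *
  generalize S 0 - I • S 1 = F at *
  set u := uu n F w with hu
  have uS : ∀ j, u (j + 1) = (rr n j)⁻¹ • F *ᵥ u j := fun j => rfl
  have hF : ∀ (v : Fin (n + 1) → ℂ) (μ : ℂ), S 2 *ᵥ v = μ • v →
      S 2 *ᵥ F *ᵥ v = (μ - 1) • F *ᵥ v := fun v μ hv => by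
    rw [mulVec_mulVec, b, sub_mulVec, ← mulVec_mulVec, hv, mulVec_smul, sub_smul, one_smul]
  have uH : ∀ j : ℕ, S 2 *ᵥ u j = ((n : ℂ) / 2 - j) • u j := fun j => by
    induction j with
    | zero =>
      show S 2 *ᵥ w = _ • w
      simpa using w2
    | succ j ih =>
      rw [uS, mulVec_smul, hF _ _ ih, smul_comm]
      push_cast
      rw [sub_sub]
  have uE : ∀ j ≤ n, E *ᵥ u (j + 1) = rr n j • u j := fun j hj => by
    rw [uS, mulVec_smul, mulVec_mulVec, c, add_mulVec, sub_mulVec, smul_mulVec, one_mulVec,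
      ← mulVec_mulVec, uH, mulVec_smul, uH, show rr n j • u j = ((rr n j)⁻¹ * ((j + 1) * (n - j))) •
        u j by rw [← rr_sq hj, ← mul_assoc, inv_mul_mul_self]]
    push_cast
    module
  have u0 : ∀ j ≤ n, u j ≠ 0 := fun j => by
    induction j with
    | zero => exact fun _ => w0
    | succ j ih =>
      intro hj h
      have := uE j (by omega)
      rw [h, mulVec_zero] at this
      exact smul_ne_zero (rr_ne hj) (ih (by omega)) this.symm
  have uW : ∀ j, u j ∈ W := fun j => by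
    induction j with
    | zero => exact wW
    | succ j ih => exact W.smul_mem _ (mF _ ih)
  let U : Matrix (Fin (n + 1)) (Fin (n + 1)) ℂ := (of fun j : Fin (n + 1) => u j)ᵀ
  have hU : IsUnit U := by
    rw [← linearIndependent_cols_iff_isUnit]
    refine End.eigenvectors_linearIndependent' (S 2).mulVecLin
      (fun j : Fin (n + 1) => (n : ℂ) / 2 - (j : ℕ)) (fun i j hij => ?_) _ fun j =>
      ⟨End.mem_eigenspace_iff.2 (uH j), u0 j (Nat.le_of_lt_succ j.2)⟩
    exact Fin.ext (Nat.cast_injective (R := ℂ) (sub_right_injective hij))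
  have mu : ∀ (A B : Matrix (Fin (n + 1)) (Fin (n + 1)) ℂ),
      (∀ j : Fin (n + 1), A *ᵥ u j = ∑ k : Fin (n + 1), B k j • u k) → A * U = U * B := by
    intro A B hh
    ext i j
    have := congrFun (hh j) i
    rw [Finset.sum_apply] at this
    exact this.trans (Finset.sum_congr rfl fun k _ => mul_comm _ _)
  have HU : S 2 * U = U * spinZ n := mu _ _ fun j => by
    rw [uH, Finset.sum_eq_single j (fun k _ hk => by rw [spinZ, diagonal_apply_ne _ hk, zero_smul])
      (by simp), spinZ, diagonal_apply_eq]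
  have Fn : F *ᵥ u n = 0 := by
    obtain ⟨x, hx⟩ := mulVec_surjective_iff_isUnit.2 hU (F *ᵥ u n)
    have h1 := hF _ _ (uH n)
    rw [← hx, mulVec_mulVec, HU, ← mulVec_mulVec, ← mulVec_smul] at h1
    have h2 := mulVec_injective_iff_isUnit.2 hU h1
    have : x = 0 := by
      ext j
      have h3 := congrFun h2 j
      rw [spinZ, mulVec_diagonal, Pi.smul_apply, smul_eq_mul] at h3
      refine (mul_eq_mul_right_iff.1 h3).resolve_left fun h4 => j.2.ne ?_
      have h5 : ((j : ℕ) : ℂ) = n + 1 := by linear_combination -h4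
      exact_mod_cast h5
    rw [← hx, this, mulVec_zero]
  have FU : F * U = U * spinLower n := mu _ _ fun j => by
    rcases (Nat.le_of_lt_succ j.2).lt_or_eq with hj | hj
    · rw [Finset.sum_eq_single ⟨j + 1, by omega⟩ (fun k _ hk => by
        rw [spinLower, of_apply, if_neg fun h => hk (Fin.ext h), zero_smul]) (by simp),
        spinLower, of_apply, if_pos rfl, uS]
      exact (smul_inv_smul₀ (rr_ne hj) _).symm
    · rw [hj, Fn, Finset.sum_eq_zero fun k _ => ?_]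
      rw [spinLower, of_apply, if_neg (by have := k.2; omega), zero_smul]
  have EU : E * U = U * (spinLower n)ᴴ := mu _ _ fun j => by
    obtain ⟨j, hj⟩ := j
    cases j with
    | zero =>
      rw [Finset.sum_eq_zero fun k _ => ?_]
      · exact w1
      rw [conjTranspose_apply, spinLower, of_apply, if_neg (by simp), star_zero, zero_smul]
    | succ j =>
      rw [Finset.sum_eq_single ⟨j, by omega⟩ (fun k _ hk => by
        rw [conjTranspose_apply, spinLower, of_apply,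
          if_neg fun h => hk (Fin.ext (Nat.succ_injective h).symm), star_zero, zero_smul])
        (by simp), conjTranspose_apply, spinLower, of_apply, if_pos rfl, uE j (by omega)]
      exact congrArg (· • u j) (conj_ofReal _).symm
  refine ⟨U, hU, fun j => uW j, fun a => ?_⟩
  fin_cases a
  · show S 0 * U = U * ((1 / 2 : ℂ) • ((spinLower n)ᴴ + spinLower n))
    rw [e0, Matrix.smul_mul, add_mul, EU, FU, Matrix.mul_smul, mul_add]
  · show S 1 * U = U * ((1 / (2 * I) : ℂ) • ((spinLower n)ᴴ - spinLower n))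
    rw [e1, Matrix.smul_mul, sub_mul, EU, FU, Matrix.mul_smul, mul_sub]
  · exact HU

theorem conj (h : IsSpin ((n : ℝ) / 2) S) :
    ∃ U : Matrix (Fin (n + 1)) (Fin (n + 1)) ℂ, IsUnit U ∧ ∀ a, S a * U = U * spin n a := by
  obtain ⟨U, a, -, b⟩ := conjW h (W := ⊤) (fun _ _ _ => trivial) top_ne_bot
  exact ⟨U, a, b⟩

theorem irred (h : IsSpin ((n : ℝ) / 2) S) : Irred S := by
  intro W hW
  refine or_iff_not_imp_left.2 fun h0 => eq_top_iff.2 fun v _ => ?_
  obtain ⟨U, a, b, -⟩ := conjW h hW h0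
  obtain ⟨x, rfl⟩ := mulVec_surjective_iff_isUnit.2 a v
  rw [mulVec_eq_sum]
  exact W.sum_mem fun j _ => by
    rw [op_smul_eq_smul]
    exact W.smul_mem _ (b j)

theorem uniq {T : Fin 3 → Matrix (Fin (n + 1)) (Fin (n + 1)) ℂ} (h : IsSpin ((n : ℝ) / 2) S)
    (h' : IsSpin ((n : ℝ) / 2) T) :
    ∃ U : Matrix (Fin (n + 1)) (Fin (n + 1)) ℂ, IsUnit U ∧ ∀ a, S a * U = U * T a := by
  obtain ⟨_, ⟨U, rfl⟩, a⟩ := conj h
  obtain ⟨_, ⟨V, rfl⟩, b⟩ := conj h'
  refine ⟨(U * V⁻¹).1, Units.isUnit _, fun c => ?_⟩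
  rw [Units.val_mul, ← mul_assoc, a, mul_assoc, mul_assoc, Units.mul_right_inj,
    Units.eq_inv_mul_iff_mul_eq, ← mul_assoc, ← b, Units.mul_inv_cancel_right]

end Vale.Agent.P361S42
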