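import Vale.Agent.P361S42.St0
import Vale.Agent.P361S42.Kr

/-!
# The Heisenberg ferromagnet built from any spin matrices `S 0, S 1, S 2` on `ℂ^(n+1)`
-/

noncomputable section

namespace Vale.Agent.P361S42

open Vale.Agent.P361.Model (Op siteOp box)

variable {n : ℕ} (S : Fin 3 → Matrix (Fin (n + 1)) (Fin (n + 1)) ℂ) (N : ℕ)

/-- `S_x · S_y` for the unordered pair `{x, y}`. -/
def bond : Sym2 (box N) → Op n (box N) :=
  Sym2.lift ⟨fun x y => ∑ a, siteOp x (S a) * siteOp y (S a),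
    fun x y => Finset.sum_congr rfl fun a _ => site_comm (S a) x y⟩

/-- The unordered pairs `{x, y}` of sites of `Λ_N` with `|x - y|₁ = 1`. -/
def edges : Finset (Sym2 (box N)) :=
  (Finset.univ.filter fun p : box N × box N => ∑ i, |p.1.1 i - p.2.1 i| = 1).image
    fun p => s(p.1, p.2)

/-- `H_N`. -/
def ham : Op n (box N) := -∑ e ∈ edges N, bond S N e

/-- `M_N`. -/
def mag : Op n (box N) := ∑ x, siteOp x (S 2)

/-- `Tr exp (-β (H_N - h M_N))`. -/
def partFn (β h : ℝ) : ℂ :=
  (NormedSpace.exp (-(β : ℂ) • (ham S N - (h : ℂ) • mag S N))).trace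

end Vale.Agent.P361S42
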