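import Vale.Agent.P361S42.Defs
import Vale.Agent.P361S42.Rep
import Vale.Agent.P361.H285.Main

/-!
# Bloch's law for all spin matrices
-/

set_option linter.all false

namespace Vale.Agent.P361S42

open Matrix Complex Filter Topology
open Vale.Agent.P361.Model

variable {n : ℕ}

theorem std (n : ℕ) : IsSpin ((n : ℝ) / 2) (spin n) := by
  have a : spinLower n * (spinLower n)ᴴ = _ := P361.H.lower_raise
  have b : (spinLower n)ᴴ * spinLower n = _ := P361.H.raise_lower
  have c : (spinLower n)ᴴ * spinLower n - spinLower n * (spinLower n)ᴴ = (2 : ℂ) • spinZ n :=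
    P361.H.comm_raise_lower
  have d : spinZ n * spinLower n - spinLower n * spinZ n = -spinLower n := P361.H.comm_z_lower
  have z : (spinZ n)ᴴ = spinZ n := P361.H.spinZ_conj
  have e := congrArg conjTranspose d
  rw [conjTranspose_sub, conjTranspose_mul, conjTranspose_mul, z, conjTranspose_neg] at e
  have k : (1 / 2 : ℂ) • ((spinLower n)ᴴ * spinLower n + spinLower n * (spinLower n)ᴴ) +
      spinZ n * spinZ n = ((((n : ℝ) / 2 : ℝ) : ℂ) * (((n : ℝ) / 2 : ℝ) + 1)) • 1 := by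
    rw [a, b, spinZ, diagonal_mul_diagonal, diagonal_add, ← diagonal_smul, diagonal_add,
      smul_one_eq_diagonal]
    congr 1
    ext j
    simp only [Pi.smul_apply, smul_eq_mul]
    push_cast
    ring
  have i : (1 / (2 * I) : ℂ) = -(1 / 2) * I := by
    field_simp
    simp
  have s0 : spin n 0 = (1 / 2 : ℂ) • ((spinLower n)ᴴ + spinLower n) := rfl
  have s1 : spin n 1 = (-(1 / 2) * I : ℂ) • ((spinLower n)ᴴ - spinLower n) := i ▸ rfl
  have s2 : spin n 2 = spinZ n := rfl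
  generalize (spinLower n)ᴴ = E at *
  generalize spinLower n = F at *
  generalize spinZ n = H at *
  rw [sub_eq_iff_eq_add] at c d e
  have I2 : I ^ 2 = -1 := I_sq
  refine ⟨fun p q => ?_, ?_⟩
  · fin_cases p <;> fin_cases q <;>
      simp only [Fin.sum_univ_three, eps, Fin.val_zero, Fin.val_one, Fin.val_two, Fin.zero_eta,
        Fin.mk_one, Fin.reduceFinMk, s0, s1, s2, mul_add, add_mul, mul_sub, sub_mul,
        Matrix.mul_smul, Matrix.smul_mul, c, d, e] <;>
      match_scalars <;> ring_nf <;> simp [I2, I_pow_three] <;> norm_num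
  · rw [← k, Fin.sum_univ_three, s0, s1, s2]
    simp only [mul_add, add_mul, mul_sub, sub_mul, Matrix.mul_smul, Matrix.smul_mul]
    match_scalars <;> ring_nf <;> simp [I2] <;> norm_num

theorem bond_mk (S : Fin 3 → Matrix (Fin (n + 1)) (Fin (n + 1)) ℂ) (N : ℕ) (x y : box N) :
    bond S N s(x, y) = ∑ a, siteOp x (S a) * siteOp y (S a) := rfl

theorem sc_sum {R ι : Type*} [Semiring R] {K : R} (t : Finset ι) {f g : ι → R}
    (h : ∀ i, SemiconjBy K (f i) (g i)) : SemiconjBy K (∑ i ∈ t, f i) (∑ i ∈ t, g i) := by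
  unfold SemiconjBy
  rw [Finset.mul_sum, Finset.sum_mul]
  exact Finset.sum_congr rfl fun i _ => h i

theorem tr_conj {m : Type} [Fintype m] [DecidableEq m] {K A B : Matrix m m ℂ} (hK : IsUnit K)
    (h : SemiconjBy K A B) : (NormedSpace.exp B).trace = (NormedSpace.exp A).trace := by
  obtain ⟨K, rfl⟩ := hK
  rw [← (Units.mul_inv_eq_iff_eq_mul K).2 h.eq, Matrix.exp_units_conj, trace_units_conj]

theorem ham_std (n N : ℕ) :
    ham (spin n) N = hamiltonian n fun x y : box N => ∑ i, |x.1 i - y.1 i| = 1 := by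
  unfold ham hamiltonian edges
  simp only [← bond_mk]
  rw [← Fintype.sum_prod_type', ← Finset.sum_filter,
    Finset.sum_comp (bond (spin n) N) fun p : box N × box N => s(p.1, p.2), Finset.smul_sum]
  refine congrArg _ (Finset.sum_congr rfl fun e he => ?_)
  obtain ⟨⟨x, y⟩, h, rfl⟩ := Finset.mem_image.1 he
  have h1 : ∑ i, |x.1 i - y.1 i| = 1 := (Finset.mem_filter.1 h).2
  have h2 : x ≠ y := by
    rintro rfl
    simp at h1
  rw [Finset.card_eq_two.2 ⟨(x, y), (y, x), fun h => h2 (congrArg Prod.fst h), ?_⟩,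
    ← Nat.cast_smul_eq_nsmul ℂ, smul_smul]
  · simp
  ext ⟨u, v⟩
  simp only [Finset.mem_filter, Finset.mem_univ, true_and, Sym2.eq_iff, Finset.mem_insert,
    Finset.mem_singleton, Prod.mk.injEq]
  refine ⟨fun h => h.2, fun h => ⟨?_, h⟩⟩
  rcases h with ⟨rfl, rfl⟩ | ⟨rfl, rfl⟩
  · exact h1
  · simpa only [abs_sub_comm] using h1

theorem partFn_eq {S : Fin 3 → Matrix (Fin (n + 1)) (Fin (n + 1)) ℂ}
    (hS : IsSpin ((n : ℝ) / 2) S) (N : ℕ) (β h : ℝ) : partFn S N β h = partFn (spin n) N β h := by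
  obtain ⟨U, hU, a⟩ := conj hS
  have b : ∀ (x : box N) c, SemiconjBy (kr fun _ => U) (siteOp x (spin n c)) (siteOp x (S c)) :=
    fun x c => (kr_conj (a c) x).symm
  have c : ∀ e, SemiconjBy (kr fun _ => U) (bond (spin n) N e) (bond S N e) := fun e => by
    induction e using Sym2.inductionOn with
    | hf x y =>
      rw [bond_mk, bond_mk]
      exact sc_sum _ fun c => (b x c).mul_right (b y c)
  have d : SemiconjBy (kr fun _ => U) (ham (spin n) N) (ham S N) := (sc_sum _ c).neg_right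
  have e : SemiconjBy (kr fun _ => U) (mag (spin n) N) (mag S N) := sc_sum _ fun x => b x 2
  exact tr_conj (kr_unit hU) ((d.sub_right (e.smul_right _)).smul_right _)

theorem partFn_pos (n N : ℕ) (β h : ℝ) :
    (partFn (spin n) N β h).im = 0 ∧ 0 < (partFn (spin n) N β h).re := by
  have a : ∀ (x : box N) c, (siteOp x (spin n c)).IsHermitian := fun x c =>
    P361.siteOpV_isHermitian x (P361.spin_isHermitian n c)
  have c : ∀ e, IsSelfAdjoint (bond (spin n) N e) := fun e => by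
    induction e using Sym2.inductionOn with
    | hf x y =>
      rw [bond_mk]
      exact isSelfAdjoint_sum _ fun c _ =>
        ((a x c).isSelfAdjoint.commute_iff (a y c)).1 (site_comm _ x y)
  have d : IsSelfAdjoint (ham (spin n) N) := (isSelfAdjoint_sum _ fun e _ => c e).neg
  have e : IsSelfAdjoint (mag (spin n) N) := isSelfAdjoint_sum _ fun x _ => a x 2
  have b : (-(β : ℂ) • (ham (spin n) N - (h : ℂ) • mag (spin n) N)).IsHermitian :=
    IsSelfAdjoint.smul (by simp [IsSelfAdjoint])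
      (d.sub (IsSelfAdjoint.smul (by simp [IsSelfAdjoint]) e))
  obtain ⟨U, E, h1, -, -, h2⟩ := P361.H.exists_diag _ b
  unfold partFn
  rw [h2, trace_mul_cycle, h1, Matrix.one_mul, trace_diagonal, ← ofReal_sum]
  exact ⟨ofReal_im _, Finset.sum_pos (fun i _ => Real.exp_pos _) Finset.univ_nonempty⟩

theorem main (n : ℕ) (hn : 1 ≤ n) :
    (∃ S : Fin 3 → Matrix (Fin (n + 1)) (Fin (n + 1)) ℂ,
      IsSpin (n / 2) S ∧ ∀ a, (S a).IsHermitian) ∧
    ∀ S : Fin 3 → Matrix (Fin (n + 1)) (Fin (n + 1)) ℂ, IsSpin (n / 2) S → Irred S ∧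
      (∀ T : Fin 3 → Matrix (Fin (n + 1)) (Fin (n + 1)) ℂ, IsSpin (n / 2) T →
        ∃ U, IsUnit U ∧ ∀ a, S a * U = U * T a) ∧
      (∀ N β h, (partFn S N β h).im = 0 ∧ 0 < (partFn S N β h).re) ∧
      ∃ (p : ℝ → ℝ → ℝ) (m : ℝ → ℝ),
        (∀ β : ℝ, 0 < β →
          (∀ h : ℝ, Tendsto (fun N : ℕ => 1 / (β * (box N).card) * Real.log (partFn S N β h).re)
            atTop (𝓝 (p β h))) ∧
          ConvexOn ℝ Set.univ (p β) ∧ HasDerivWithinAt (p β) (m β) (Set.Ioi 0) 0 ∧
          m β ∈ Set.Icc (0 : ℝ) (n / 2)) ∧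
        (∀ᶠ β in atTop, 0 < m β) ∧
        Tendsto (fun β : ℝ => β ^ (3 / 2 : ℝ) * ((n : ℝ) / 2 - m β)) atTop
          (𝓝 ((riemannZeta (3 / 2)).re /
            (8 * Real.pi ^ (3 / 2 : ℝ) * ((n : ℝ) / 2) ^ (3 / 2 : ℝ)))) := by
  obtain ⟨a, ⟨β₀, -, b⟩, -, c, -⟩ := P361.H285.final n hn
  refine ⟨⟨spin n, std n, P361.spin_isHermitian n⟩, fun S hS => ⟨irred hS, fun T hT => uniq hS hT,
    fun N β h => (partFn_eq hS N β h).symm ▸ partFn_pos n N β h, pressure n, spontMag n,
    fun β hβ => ?_, eventually_atTop.2 ⟨β₀, b⟩, c⟩⟩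
  obtain ⟨a1, a2, -, a3, -, a4⟩ := a β hβ
  obtain ⟨-, a5, a6, a7⟩ := a4 0 le_rfl
  refine ⟨fun h => (a1 h).congr fun N => ?_, a2, a3, a5, a6.trans a7⟩
  rw [partFn_eq hS, partFn, ham_std, one_div]
  rfl

end Vale.Agent.P361S42
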