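import Vale.Agent.P361.MathlibUsed

/-!
# Spin matrices, given by their relations
-/

namespace Vale.Agent.P361S42

open Matrix

variable {d : Type} [Fintype d] [DecidableEq d]

/-- The Levi-Civita symbol on the indices `0, 1, 2`. -/
noncomputable def eps (a b c : Fin 3) : ℂ :=
  ((a : ℕ) - (b : ℕ) : ℂ) * ((b : ℕ) - (c : ℕ)) * ((c : ℕ) - (a : ℕ)) / 2

/-- `[S^a, S^b] = i ∑_c ε_{abc} S^c` and `∑_a (S^a)² = s (s + 1) I`. -/
structure IsSpin (s : ℝ) (S : Fin 3 → Matrix d d ℂ) : Prop where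
  comm : ∀ a b, S a * S b - S b * S a = Complex.I • ∑ c, eps a b c • S c
  casimir : ∑ a, S a * S a = ((s : ℂ) * (s + 1)) • 1

/-- The only subspaces invariant under the three matrices are `0` and the whole space. -/
def Irred (S : Fin 3 → Matrix d d ℂ) : Prop :=
  ∀ W : Submodule ℂ (d → ℂ), (∀ a, ∀ v ∈ W, S a *ᵥ v ∈ W) → W = ⊥ ∨ W = ⊤

end Vale.Agent.P361S42
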